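import Mathlib

namespace Vale.Agent.Lib.P050

theorem half_pow_le (ξ η : ℝ) (hξ : 0 ≤ ξ) (hη : 0 ≤ η) (h1 : ξ + η = 1) (j : ℕ) :
    (1 / 2 : ℝ) ^ j ≤ ξ ^ (j + 1) + η ^ (j + 1) := by
  induction j with
  | zero => simp [h1]
  | succ j ih =>
    have hcheb : 0 ≤ (ξ ^ (j + 1) - η ^ (j + 1)) * (ξ - η) := by
      rcases le_total ξ η with h | h
      · exact mul_nonneg_of_nonpos_of_nonpos
          (sub_nonpos.mpr (pow_le_pow_left₀ hξ h _)) (sub_nonpos.mpr h)
      · exact mul_nonneg (sub_nonneg.mpr (pow_le_pow_left₀ hη h _)) (sub_nonneg.mpr h)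
    have e1 : ξ ^ (j + 1 + 1) + η ^ (j + 1 + 1)
        = ((ξ ^ (j + 1) + η ^ (j + 1)) * (ξ + η) + (ξ ^ (j + 1) - η ^ (j + 1)) * (ξ - η)) / 2 := by
      ring
    rw [e1, h1, mul_one, pow_succ]
    linarith

theorem two_mul_le_half (ξ η : ℝ) (h1 : ξ + η = 1) : 2 * ξ * η ≤ 1 / 2 := by
  nlinarith [sq_nonneg (ξ - η)]

theorem two_point (ξ η : ℝ) (hξ : 0 ≤ ξ) (hη : 0 ≤ η) (h1 : ξ + η = 1) :
    ∀ a b k : ℕ, a + b = k + 1 → (2 * ξ * η) ^ k ≤ ξ ^ a * η ^ b + ξ ^ b * η ^ a := by
  have h2 := two_mul_le_half ξ η h1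
  have h0 : 0 ≤ 2 * ξ * η := by positivity
  have base : ∀ k : ℕ, (2 * ξ * η) ^ k ≤ ξ ^ (k + 1) + η ^ (k + 1) := fun k =>
    (pow_le_pow_left₀ h0 h2 k).trans (half_pow_le ξ η hξ hη h1 k)
  intro a
  induction a with
  | zero =>
    intro b k hab
    have hb : b = k + 1 := by omega
    subst hb
    simpa [add_comm] using base k
  | succ a ih =>
    intro b k hab
    rcases Nat.eq_zero_or_pos b with hb | hb
    · subst hb
      have ha : a + 1 = k + 1 := by omega
      rw [ha]
      simpa using base k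
    · obtain ⟨b', rfl⟩ : ∃ b', b = b' + 1 := ⟨b - 1, by omega⟩
      rcases Nat.eq_zero_or_pos (a + b') with h00 | hpos
      · have ha0 : a = 0 := by omega
        have hb0 : b' = 0 := by omega
        have hk : k = 1 := by omega
        subst ha0 hb0 hk
        simp
        linarith
      · obtain ⟨k', hk'⟩ : ∃ k', a + b' = k' + 1 := ⟨a + b' - 1, by omega⟩
        have hk : k = k' + 2 := by omega
        subst hk
        have ih' := ih b' k' hk'
        have e : ξ ^ (a + 1) * η ^ (b' + 1) + ξ ^ (b' + 1) * η ^ (a + 1)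
            = ξ * η * (ξ ^ a * η ^ b' + ξ ^ b' * η ^ a) := by ring
        rw [e]
        have hp : 0 ≤ (2 * ξ * η) ^ k' := pow_nonneg h0 _
        have hxy : 0 ≤ ξ * η := mul_nonneg hξ hη
        calc (2 * ξ * η) ^ (k' + 2) = (2 * ξ * η) ^ 2 * (2 * ξ * η) ^ k' := by ring
          _ ≤ ξ * η * (2 * ξ * η) ^ k' := by
              apply mul_le_mul_of_nonneg_right _ hp
              nlinarith
          _ ≤ ξ * η * (ξ ^ a * η ^ b' + ξ ^ b' * η ^ a) := mul_le_mul_of_nonneg_left ih' hxy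

theorem final_arith (x y e N₁ N₂ N : ℝ) (a b m : ℕ) (hx : 0 ≤ x) (hy : 0 ≤ y) (he : 0 ≤ e)
    (hn : 0 < x + y) (hexy : e ≤ x * y) (hab : 1 ≤ a + b) (hm : a + b ≤ m + 1)
    (h1 : x ^ a * y ^ b * e ^ m ≤ N₁ * (x * y) ^ m)
    (h2 : x ^ b * y ^ a * e ^ m ≤ N₂ * (x * y) ^ m)
    (hN : N₁ + N₂ ≤ N) (hN1 : 0 ≤ N₁) (hN2 : 0 ≤ N₂) :
    (2 * e / (x + y) ^ 2) ^ m ≤ N / (x + y) ^ (a + b) := by
  have hN0 : 0 ≤ N := by linarith
  rcases Nat.eq_zero_or_pos m with hm0 | hmpos
  · subst hm0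
    simp only [pow_zero, mul_one] at h1 h2 ⊢
    have hab1 : a + b = 1 := by omega
    rw [hab1, pow_one, one_le_div hn]
    have : (a = 1 ∧ b = 0) ∨ (a = 0 ∧ b = 1) := by omega
    rcases this with ⟨ha, hb⟩ | ⟨ha, hb⟩
    · subst ha hb
      simp at h1 h2
      linarith
    · subst ha hb
      simp at h1 h2
      linarith
  · rcases eq_or_lt_of_le he with he0 | hepos
    · rw [← he0]
      simp only [mul_zero, zero_div]
      rw [zero_pow (by omega)]
      exact div_nonneg hN0 (pow_nonneg hn.le _)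
    · have hxy : 0 < x * y := lt_of_lt_of_le hepos hexy
      have hx' : 0 < x := by
        rcases eq_or_lt_of_le hx with h | h
        · rw [← h] at hxy; simp at hxy
        · exact h
      have hy' : 0 < y := by
        rcases eq_or_lt_of_le hy with h | h
        · rw [← h] at hxy; simp at hxy
        · exact h
      set n := x + y with hn_def
      have hξ : 0 ≤ x / n := div_nonneg hx hn.le
      have hη : 0 ≤ y / n := div_nonneg hy hn.le
      have hsum : x / n + y / n = 1 := by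
        rw [← add_div]; exact div_self hn.ne'
      obtain ⟨k, hk⟩ : ∃ k, a + b = k + 1 := ⟨a + b - 1, by omega⟩
      have htp := two_point (x / n) (y / n) hξ hη hsum a b k hk
      have h0 : 0 ≤ 2 * (x / n) * (y / n) := by positivity
      have hle1 : 2 * (x / n) * (y / n) ≤ 1 := (two_mul_le_half _ _ hsum).trans (by norm_num)
      have hkm : k ≤ m := by omega
      have hpow : (2 * (x / n) * (y / n)) ^ m ≤ (2 * (x / n) * (y / n)) ^ k :=
        pow_le_pow_of_le_one h0 hle1 hkm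
      have hstep : (2 * (x / n) * (y / n)) ^ m ≤ (x ^ a * y ^ b + x ^ b * y ^ a) / n ^ (a + b) := by
        refine (hpow.trans htp).trans (le_of_eq ?_)
        rw [div_pow, div_pow, div_pow, div_pow, pow_add]
        field_simp
      have hxym : 0 < (x * y) ^ m := pow_pos hxy m
      have hnab : 0 < n ^ (a + b) := pow_pos hn _
      have hem : 0 ≤ e ^ m := pow_nonneg he m
      have hfac : 2 * e / n ^ 2 = 2 * (x / n) * (y / n) * (e / (x * y)) := by
        field_simp
      rw [hfac, mul_pow, div_pow]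
      have hN12 : (x ^ a * y ^ b + x ^ b * y ^ a) * e ^ m ≤ N * (x * y) ^ m := by
        nlinarith
      calc (2 * (x / n) * (y / n)) ^ m * (e ^ m / (x * y) ^ m)
          ≤ (x ^ a * y ^ b + x ^ b * y ^ a) / n ^ (a + b) * (e ^ m / (x * y) ^ m) :=
            mul_le_mul_of_nonneg_right hstep (div_nonneg hem hxym.le)
        _ = ((x ^ a * y ^ b + x ^ b * y ^ a) * e ^ m) / (x * y) ^ m / n ^ (a + b) := by
            field_simp
        _ ≤ N / n ^ (a + b) := by
            apply div_le_div_of_nonneg_right _ hnab.le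
            rw [div_le_iff₀ hxym]
            exact hN12

end Vale.Agent.Lib.P050
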