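import Mathlib

namespace Vale.Agent.Lib.P050

open Finset

/-- Weighted count of homomorphisms from the bipartite graph with vertex classes `A`, `B`
and edge relation `R` into the weighted bipartite graph with vertex classes `X`, `Y`,
vertex weights `w`, `ν` and edge weights `M`: the sum over all maps `σ : A → X`, `τ : B → Y`
of the product of the vertex weights of the images and of the weights `M (σ a) (τ b)`
over the edges `R a b`. -/
noncomputable def bipHom {A B X Y : Type*} [Fintype A] [Fintype B] [Fintype X] [Fintype Y]
    [DecidableEq A] [DecidableEq B] (R : A → B → Prop) [DecidableRel R] (w : X → ℝ) (ν : Y → ℝ) (M : X → Y → ℝ) : ℝ :=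
  ∑ σ : A → X, ∑ τ : B → Y,
    ((∏ a, w (σ a)) * ∏ b, ν (τ b)) * ∏ a, ∏ b, if R a b then M (σ a) (τ b) else 1

end Vale.Agent.Lib.P050
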