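import Mathlib

namespace Vale.Agent.Lib.P050

open Finset

/-- Harris / FKG inequality for a finite family of monotone nonnegative functions
on a finite distributive lattice, with respect to a log-supermodular weight. -/
theorem harris_finset {α ι : Type*} [DistribLattice α] [Fintype α] (S : Finset ι)
    (μ : α → ℝ) (F : ι → α → ℝ)
    (hμ0 : 0 ≤ μ) (hμ : ∀ a b, μ a * μ b ≤ μ (a ⊓ b) * μ (a ⊔ b))
    (hF0 : ∀ i ∈ S, 0 ≤ F i) (hFm : ∀ i ∈ S, Monotone (F i)) :
    (∑ a, μ a) * ∏ i ∈ S, (∑ a, μ a * F i a)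
      ≤ (∑ a, μ a) ^ S.card * ∑ a, μ a * ∏ i ∈ S, F i a := by
  classical
  induction S using Finset.induction_on with
  | empty => simp
  | insert i S hi ih =>
    have hT : 0 ≤ ∑ a, μ a := Finset.sum_nonneg fun a _ => hμ0 a
    have hFi0 : 0 ≤ F i := hF0 i (Finset.mem_insert_self i S)
    have hFim : Monotone (F i) := hFm i (Finset.mem_insert_self i S)
    have ih' := ih (fun j hj => hF0 j (Finset.mem_insert_of_mem hj))
      (fun j hj => hFm j (Finset.mem_insert_of_mem hj))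
    have hI : 0 ≤ ∑ a, μ a * F i a :=
      Finset.sum_nonneg fun a _ => mul_nonneg (hμ0 a) (hFi0 a)
    have hG0 : 0 ≤ fun a => ∏ j ∈ S, F j a := fun a =>
      Finset.prod_nonneg fun j hj => hF0 j (Finset.mem_insert_of_mem hj) a
    have hGm : Monotone fun a => ∏ j ∈ S, F j a := by
      intro a b hab
      exact Finset.prod_le_prod (fun j hj => hF0 j (Finset.mem_insert_of_mem hj) a)
        (fun j hj => hFm j (Finset.mem_insert_of_mem hj) hab)
    have hfkg := fkg (F i) (fun a => ∏ j ∈ S, F j a) μ hμ0 hFi0 hG0 hFim hGm hμ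
    rw [Finset.prod_insert hi, Finset.card_insert_of_notMem hi]
    calc (∑ a, μ a) * ((∑ a, μ a * F i a) * ∏ j ∈ S, ∑ a, μ a * F j a)
        = (∑ a, μ a * F i a) * ((∑ a, μ a) * ∏ j ∈ S, ∑ a, μ a * F j a) := by ring
      _ ≤ (∑ a, μ a * F i a) * ((∑ a, μ a) ^ S.card * ∑ a, μ a * ∏ j ∈ S, F j a) :=
          mul_le_mul_of_nonneg_left ih' hI
      _ = (∑ a, μ a) ^ S.card * ((∑ a, μ a * F i a) * ∑ a, μ a * ∏ j ∈ S, F j a) := by ring
      _ ≤ (∑ a, μ a) ^ S.card * ((∑ a, μ a) * ∑ a, μ a * (F i a * ∏ j ∈ S, F j a)) :=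
          mul_le_mul_of_nonneg_left hfkg (pow_nonneg hT _)
      _ = (∑ a, μ a) ^ (S.card + 1) * ∑ a, μ a * ∏ j ∈ insert i S, F j a := by
          rw [pow_succ]
          simp only [Finset.prod_insert hi]
          ring

end Vale.Agent.Lib.P050
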