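import Mathlib
import Vale.Agent.Lib.P050.Defs
import Vale.Agent.Lib.P050.Harris

namespace Vale.Agent.Lib.P050

open Finset

section
variable {A B X Y : Type*} [Fintype A] [Fintype B] [Fintype X] [Fintype Y]
  [DecidableEq A] [DecidableEq B]
  (R : A → B → Prop) [DecidableRel R] (w : X → ℝ) (ν : Y → ℝ) (M : X → Y → ℝ)

theorem bipHom_eq :
    bipHom R w ν M = ∑ σ : A → X, (∏ a, w (σ a)) *
      ∏ b, (∑ y, ν y * ∏ a, if R a b then M (σ a) y else 1) := by
  unfold bipHom
  refine Finset.sum_congr rfl fun σ _ => ?_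
  rw [Fintype.prod_sum (fun b y => ν y * ∏ a, if R a b then M (σ a) y else 1), Finset.mul_sum]
  refine Finset.sum_congr rfl fun τ _ => ?_
  rw [Finset.prod_mul_distrib, Finset.prod_comm (s := univ) (t := univ)]
  ring

theorem sum_weight_mul (b : B) :
    ∑ σ : A → X, (∏ a, w (σ a)) * (∑ y, ν y * ∏ a, if R a b then M (σ a) y else 1)
      = ∑ y, ν y * ∏ a, ∑ x, w x * (if R a b then M x y else 1) := by
  calc ∑ σ : A → X, (∏ a, w (σ a)) * (∑ y, ν y * ∏ a, if R a b then M (σ a) y else 1)
      = ∑ σ : A → X, ∑ y, ν y * ∏ a, (w (σ a) * if R a b then M (σ a) y else 1) := by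
        refine Finset.sum_congr rfl fun σ _ => ?_
        rw [Finset.mul_sum]
        refine Finset.sum_congr rfl fun y _ => ?_
        rw [Finset.prod_mul_distrib]
        ring
    _ = ∑ y, ∑ σ : A → X, ν y * ∏ a, (w (σ a) * if R a b then M (σ a) y else 1) :=
        Finset.sum_comm
    _ = ∑ y, ν y * ∏ a, ∑ x, w x * (if R a b then M x y else 1) := by
        refine Finset.sum_congr rfl fun y _ => ?_
        rw [← Finset.mul_sum, Fintype.prod_sum (fun a x => w x * if R a b then M x y else 1)]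

theorem prod_sum_ite (b : B) (y : Y) :
    (∏ a, ∑ x, w x * (if R a b then M x y else 1)) * (∑ x, w x) ^ (univ.filter fun a => R a b).card
      = (∑ x, w x * M x y) ^ (univ.filter fun a => R a b).card * (∑ x, w x) ^ Fintype.card A := by
  have h1 : ∀ a, (∑ x, w x * (if R a b then M x y else 1))
      = if R a b then ∑ x, w x * M x y else ∑ x, w x := by
    intro a
    split_ifs <;> simp
  simp only [h1]
  rw [Finset.prod_ite, Finset.prod_const, Finset.prod_const, mul_assoc, ← pow_add,
    add_comm, Finset.card_filter_add_card_filter_not, Finset.card_univ]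

end

theorem sum_prod_weight {A X : Type*} [Fintype A] [Fintype X] [DecidableEq A] (w : X → ℝ) :
    ∑ σ : A → X, ∏ a, w (σ a) = (∑ x, w x) ^ Fintype.card A := by
  rw [← Fintype.prod_sum (fun (_ : A) x => w x), Finset.prod_const, Finset.card_univ]

/-- Sidorenko-type inequality for weighted bipartite targets whose edge weights are
monotone in the first variable (with respect to a linear order on `X`). -/
theorem bipHom_sidorenko {A B X Y : Type*} [Fintype A] [Fintype B] [Fintype X] [Fintype Y]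
    [LinearOrder X] [DecidableEq A] [DecidableEq B]
    (R : A → B → Prop) [DecidableRel R] (w : X → ℝ) (ν : Y → ℝ) (M : X → Y → ℝ)
    (hw : ∀ x, 0 ≤ w x) (hν : ∀ y, 0 ≤ ν y) (hM : ∀ x y, 0 ≤ M x y)
    (hmono : ∀ y, Monotone fun x => M x y) :
    (∑ x, w x) ^ Fintype.card A * (∑ y, ν y) ^ Fintype.card B *
        (∑ x, ∑ y, w x * ν y * M x y) ^ (∑ b : B, (univ.filter fun a => R a b).card)
      ≤ bipHom R w ν M * ((∑ x, w x) * ∑ y, ν y) ^ (∑ b : B, (univ.filter fun a => R a b).card) := by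
  classical
  set Sw := ∑ x, w x with hSw
  set Sν := ∑ y, ν y with hSν
  set P := ∑ x, ∑ y, w x * ν y * M x y with hP
  have hSw0 : 0 ≤ Sw := Finset.sum_nonneg fun x _ => hw x
  have hSν0 : 0 ≤ Sν := Finset.sum_nonneg fun y _ => hν y
  have hP0 : 0 ≤ P := Finset.sum_nonneg fun x _ => Finset.sum_nonneg fun y _ =>
    mul_nonneg (mul_nonneg (hw x) (hν y)) (hM x y)
  -- the weight and the functions
  let μ : (A → X) → ℝ := fun σ => ∏ a, w (σ a)
  let F : B → (A → X) → ℝ := fun b σ => ∑ y, ν y * ∏ a, if R a b then M (σ a) y else 1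
  have hμ0 : 0 ≤ μ := fun σ => Finset.prod_nonneg fun a _ => hw (σ a)
  have hμ : ∀ σ σ' : A → X, μ σ * μ σ' ≤ μ (σ ⊓ σ') * μ (σ ⊔ σ') := by
    intro σ σ'
    apply le_of_eq
    simp only [μ]
    rw [← Finset.prod_mul_distrib, ← Finset.prod_mul_distrib]
    refine Finset.prod_congr rfl fun a _ => ?_
    rcases le_total (σ a) (σ' a) with h | h
    · simp [h]
    · simp [h, mul_comm]
  have hite0 : ∀ (b : B) (σ : A → X) (y : Y) (a : A), 0 ≤ (if R a b then M (σ a) y else 1) := by
    intro b σ y a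
    split_ifs
    · exact hM _ _
    · exact zero_le_one
  have hF0 : ∀ b ∈ (univ : Finset B), 0 ≤ F b := fun b _ σ =>
    Finset.sum_nonneg fun y _ => mul_nonneg (hν y) (Finset.prod_nonneg fun a _ => hite0 b σ y a)
  have hFm : ∀ b ∈ (univ : Finset B), Monotone (F b) := by
    intro b _ σ σ' hσ
    refine Finset.sum_le_sum fun y _ => mul_le_mul_of_nonneg_left ?_ (hν y)
    refine Finset.prod_le_prod (fun a _ => hite0 b σ y a) fun a _ => ?_
    split_ifs
    · exact hmono y (hσ a)
    · exact le_rfl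
  have hharris := harris_finset (univ : Finset B) μ F hμ0 hμ hF0 hFm
  have hT : ∑ σ, μ σ = Sw ^ Fintype.card A := sum_prod_weight w
  have hhom : bipHom R w ν M = ∑ σ, μ σ * ∏ b, F b σ := bipHom_eq R w ν M
  rw [hT, ← hhom, Finset.card_univ] at hharris
  -- the single-function integrals
  have hI : ∀ b : B, Sw ^ Fintype.card A * Sν * P ^ (univ.filter fun a => R a b).card
      ≤ (Sw * Sν) ^ (univ.filter fun a => R a b).card * ∑ σ, μ σ * F b σ := by
    intro b
    set d := (univ.filter fun a => R a b).card with hd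
    have h1 : ∑ σ, μ σ * F b σ = ∑ y, ν y * ∏ a, ∑ x, w x * (if R a b then M x y else 1) :=
      sum_weight_mul R w ν M b
    have h2 : (Sw * Sν) ^ d * ∑ σ, μ σ * F b σ
        = Sw ^ Fintype.card A * (Sν ^ d * ∑ y, ν y * (∑ x, w x * M x y) ^ d) := by
      rw [h1, mul_pow]
      simp only [Finset.mul_sum]
      refine Finset.sum_congr rfl fun y _ => ?_
      have h3 := prod_sum_ite R w M b y
      rw [← hd, ← hSw] at h3
      calc Sw ^ d * Sν ^ d * (ν y * ∏ a, ∑ x, w x * (if R a b then M x y else 1))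
          = Sν ^ d * ν y * ((∏ a, ∑ x, w x * (if R a b then M x y else 1)) * Sw ^ d) := by ring
        _ = Sν ^ d * ν y * ((∑ x, w x * M x y) ^ d * Sw ^ Fintype.card A) := by rw [h3]
        _ = Sw ^ Fintype.card A * (Sν ^ d * (ν y * (∑ x, w x * M x y) ^ d)) := by ring
    rw [h2, mul_assoc]
    refine mul_le_mul_of_nonneg_left ?_ (pow_nonneg hSw0 _)
    -- Jensen
    have hPeq : P = ∑ y, ν y * ∑ x, w x * M x y := by
      rw [hP, Finset.sum_comm]
      refine Finset.sum_congr rfl fun y _ => ?_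
      rw [Finset.mul_sum]
      refine Finset.sum_congr rfl fun x _ => by ring
    have hD0 : ∀ y, 0 ≤ ∑ x, w x * M x y := fun y =>
      Finset.sum_nonneg fun x _ => mul_nonneg (hw x) (hM x y)
    rcases eq_or_lt_of_le hSν0 with h0 | hpos
    · -- all ν vanish
      have hν0 : ∀ y, ν y = 0 := by
        intro y
        have := (Finset.sum_eq_zero_iff_of_nonneg (fun y _ => hν y)).mp h0.symm y (Finset.mem_univ y)
        exact this
      have hP' : P = 0 := by rw [hPeq]; simp [hν0]
      rw [← h0, hP']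
      simp [hν0]
    · have hj := Real.pow_arith_mean_le_arith_mean_pow (univ : Finset Y) (fun y => ν y / Sν)
        (fun y => ∑ x, w x * M x y) (fun y _ => div_nonneg (hν y) hSν0)
        (by rw [← Finset.sum_div, ← hSν]; exact div_self hpos.ne') (fun y _ => hD0 y) d
      have e1 : ∑ y, ν y / Sν * ∑ x, w x * M x y = P / Sν := by
        rw [hPeq, Finset.sum_div]
        refine Finset.sum_congr rfl fun y _ => by ring
      have e2 : ∑ y, ν y / Sν * (∑ x, w x * M x y) ^ d
          = (∑ y, ν y * (∑ x, w x * M x y) ^ d) / Sν := by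
        rw [Finset.sum_div]
        refine Finset.sum_congr rfl fun y _ => by ring
      rw [e1, e2, div_pow, div_le_div_iff₀ (pow_pos hpos d) hpos] at hj
      calc Sν * P ^ d = P ^ d * Sν := by ring
        _ ≤ (∑ y, ν y * (∑ x, w x * M x y) ^ d) * Sν ^ d := hj
        _ = Sν ^ d * ∑ y, ν y * (∑ x, w x * M x y) ^ d := by ring
  -- multiply over b
  have hprod : ∏ b : B, (Sw ^ Fintype.card A * Sν * P ^ (univ.filter fun a => R a b).card)
      ≤ ∏ b : B, ((Sw * Sν) ^ (univ.filter fun a => R a b).card * ∑ σ, μ σ * F b σ) :=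
    Finset.prod_le_prod (fun b _ => mul_nonneg (mul_nonneg (pow_nonneg hSw0 _) hSν0)
      (pow_nonneg hP0 _)) fun b _ => hI b
  set m := ∑ b : B, (univ.filter fun a => R a b).card with hm
  have hL : ∏ b : B, (Sw ^ Fintype.card A * Sν * P ^ (univ.filter fun a => R a b).card)
      = (Sw ^ Fintype.card A * Sν) ^ Fintype.card B * P ^ m := by
    rw [Finset.prod_mul_distrib, Finset.prod_const, Finset.card_univ, Finset.prod_pow_eq_pow_sum]
  have hR : ∏ b : B, ((Sw * Sν) ^ (univ.filter fun a => R a b).card * ∑ σ, μ σ * F b σ)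
      = (Sw * Sν) ^ m * ∏ b : B, ∑ σ, μ σ * F b σ := by
    rw [Finset.prod_mul_distrib, Finset.prod_pow_eq_pow_sum]
  rw [hL, hR] at hprod
  have hhom0 : 0 ≤ bipHom R w ν M := by
    rw [hhom]
    exact Finset.sum_nonneg fun σ _ => mul_nonneg (hμ0 σ)
      (Finset.prod_nonneg fun b _ => hF0 b (Finset.mem_univ b) σ)
  set T := Sw ^ Fintype.card A with hTdef
  have hT0 : 0 ≤ T := pow_nonneg hSw0 _
  -- combine
  have hcomb : T * ((T * Sν) ^ Fintype.card B * P ^ m)
      ≤ T ^ Fintype.card B * (bipHom R w ν M * (Sw * Sν) ^ m) := by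
    calc T * ((T * Sν) ^ Fintype.card B * P ^ m)
        ≤ T * ((Sw * Sν) ^ m * ∏ b : B, ∑ σ, μ σ * F b σ) :=
          mul_le_mul_of_nonneg_left hprod hT0
      _ = (Sw * Sν) ^ m * (T * ∏ b : B, ∑ σ, μ σ * F b σ) := by ring
      _ ≤ (Sw * Sν) ^ m * (T ^ Fintype.card B * bipHom R w ν M) :=
          mul_le_mul_of_nonneg_left hharris (pow_nonneg (mul_nonneg hSw0 hSν0) _)
      _ = T ^ Fintype.card B * (bipHom R w ν M * (Sw * Sν) ^ m) := by ring
  rcases eq_or_lt_of_le hT0 with h0 | hpos
  · rw [← h0]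
    have : (0 : ℝ) * Sν ^ Fintype.card B * P ^ m = 0 := by ring
    rw [this]
    exact mul_nonneg hhom0 (pow_nonneg (mul_nonneg hSw0 hSν0) _)
  · have hTB : 0 < T ^ Fintype.card B := pow_pos hpos _
    have : T ^ Fintype.card B * (T * Sν ^ Fintype.card B * P ^ m)
        ≤ T ^ Fintype.card B * (bipHom R w ν M * (Sw * Sν) ^ m) := by
      calc T ^ Fintype.card B * (T * Sν ^ Fintype.card B * P ^ m)
          = T * ((T * Sν) ^ Fintype.card B * P ^ m) := by rw [mul_pow]; ring
        _ ≤ _ := hcomb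
    exact le_of_mul_le_mul_left this hTB

end Vale.Agent.Lib.P050
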