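import Mathlib
import Vale.Agent.Lib.P050.Defs
import Vale.Agent.Lib.P050.Weighted

namespace Vale.Agent.Lib.P050

open Finset

section count
variable {A B W : Type*} [Fintype A] [Fintype B] [Fintype W] [DecidableEq A] [DecidableEq B]
  [DecidableEq W]
  (R : A → B → Prop) [DecidableRel R] (G : SimpleGraph W) [DecidableRel G.Adj]
  (X : W → Prop) [DecidablePred X]

/-- pairs of maps sending `A` into `X`, `B` outside `X` and `R`-edges to edges of `G`. -/
def sidePairs : Finset ((A → W) × (B → W)) :=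
  univ.filter fun p => (∀ a, X (p.1 a)) ∧ (∀ b, ¬ X (p.2 b)) ∧ ∀ a b, R a b → G.Adj (p.1 a) (p.2 b)

theorem card_sidePairs :
    ((sidePairs R G X).card : ℝ) = bipHom R (fun z => if X z then (1 : ℝ) else 0)
      (fun z => if X z then (0 : ℝ) else 1)
      (fun z z' => if X z ∧ ¬ X z' ∧ G.Adj z z' then (1 : ℝ) else 0) := by
  unfold sidePairs bipHom
  rw [Finset.card_filter, Nat.cast_sum, Fintype.sum_prod_type]
  refine Finset.sum_congr rfl fun σ _ => Finset.sum_congr rfl fun τ _ => ?_
  by_cases h1 : ∀ a, X (σ a)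
  · by_cases h2 : ∀ b, ¬ X (τ b)
    · by_cases h3 : ∀ a b, R a b → G.Adj (σ a) (τ b)
      · rw [if_pos ⟨h1, h2, h3⟩]
        have e1 : ∏ a, (if X (σ a) then (1 : ℝ) else 0) = 1 :=
          Finset.prod_eq_one fun a _ => if_pos (h1 a)
        have e2 : ∏ b, (if X (τ b) then (0 : ℝ) else 1) = 1 :=
          Finset.prod_eq_one fun b _ => if_neg (h2 b)
        have e3 : ∏ a, ∏ b, (if R a b then
            (if X (σ a) ∧ ¬ X (τ b) ∧ G.Adj (σ a) (τ b) then (1 : ℝ) else 0) else 1) = 1 := by
          refine Finset.prod_eq_one fun a _ => Finset.prod_eq_one fun b _ => ?_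
          by_cases hr : R a b
          · rw [if_pos hr, if_pos ⟨h1 a, h2 b, h3 a b hr⟩]
          · rw [if_neg hr]
        rw [e1, e2, e3]
        norm_num
      · rw [if_neg (fun h => h3 h.2.2)]
        push Not at h3
        obtain ⟨a, b, hr, hadj⟩ := h3
        have e3 : ∏ a, ∏ b, (if R a b then
            (if X (σ a) ∧ ¬ X (τ b) ∧ G.Adj (σ a) (τ b) then (1 : ℝ) else 0) else 1) = 0 := by
          refine Finset.prod_eq_zero (Finset.mem_univ a) ?_
          refine Finset.prod_eq_zero (Finset.mem_univ b) ?_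
          rw [if_pos hr, if_neg (fun h => hadj h.2.2)]
        rw [e3]
        norm_num
    · rw [if_neg (fun h => h2 h.2.1)]
      push Not at h2
      obtain ⟨b, hb⟩ := h2
      have e2 : ∏ b, (if X (τ b) then (0 : ℝ) else 1) = 0 :=
        Finset.prod_eq_zero (Finset.mem_univ b) (if_pos hb)
      rw [e2]
      norm_num
  · rw [if_neg (fun h => h1 h.1)]
    push Not at h1
    obtain ⟨a, ha⟩ := h1
    have e1 : ∏ a, (if X (σ a) then (1 : ℝ) else 0) = 0 :=
      Finset.prod_eq_zero (Finset.mem_univ a) (if_neg ha)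
    rw [e1]
    norm_num

end count

section inj
variable {V W : Type*} [Fintype V] [Fintype W] [DecidableEq V] [DecidableEq W]
  (H : SimpleGraph V) [DecidableRel H.Adj] (G : SimpleGraph W) [DecidableRel G.Adj]
  (c : V → Prop) [DecidablePred c] (X : W → Prop) [DecidablePred X]

/-- the homomorphism glued from a pair of maps (side `c` into `X`). -/
def homOfPairs₁ (hc : ∀ u v, H.Adj u v → (c u ↔ ¬ c v))
    (p : {p // p ∈ sidePairs (fun (a : {v // c v}) (b : {v // ¬ c v}) => H.Adj a.1 b.1) G X}) :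
    H →g G where
  toFun v := if h : c v then p.1.1 ⟨v, h⟩ else p.1.2 ⟨v, h⟩
  map_rel' := by
    intro u v huv
    have hp := (Finset.mem_filter.mp p.2).2
    by_cases hu : c u
    · have hv : ¬ c v := (hc u v huv).mp hu
      simp only [dif_pos hu, dif_neg hv]
      exact hp.2.2 ⟨u, hu⟩ ⟨v, hv⟩ huv
    · have hv : c v := by
        by_contra hv
        exact hu ((hc u v huv).mpr hv)
      simp only [dif_neg hu, dif_pos hv]
      exact (hp.2.2 ⟨v, hv⟩ ⟨u, hu⟩ huv.symm).symm

/-- the homomorphism glued from a pair of maps (side `c` outside `X`). -/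
def homOfPairs₂ (hc : ∀ u v, H.Adj u v → (c u ↔ ¬ c v))
    (q : {q // q ∈ sidePairs (fun (b : {v // ¬ c v}) (a : {v // c v}) => H.Adj b.1 a.1) G X}) :
    H →g G where
  toFun v := if h : c v then q.1.2 ⟨v, h⟩ else q.1.1 ⟨v, h⟩
  map_rel' := by
    intro u v huv
    have hq := (Finset.mem_filter.mp q.2).2
    by_cases hu : c u
    · have hv : ¬ c v := (hc u v huv).mp hu
      simp only [dif_pos hu, dif_neg hv]
      exact (hq.2.2 ⟨v, hv⟩ ⟨u, hu⟩ huv.symm).symm
    · have hv : c v := by
        by_contra hv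
        exact hu ((hc u v huv).mpr hv)
      simp only [dif_neg hu, dif_pos hv]
      exact hq.2.2 ⟨u, hu⟩ ⟨v, hv⟩ huv

theorem card_hom_ge [Nonempty V] (hc : ∀ u v, H.Adj u v → (c u ↔ ¬ c v)) :
    (sidePairs (fun (a : {v // c v}) (b : {v // ¬ c v}) => H.Adj a.1 b.1) G X).card
      + (sidePairs (fun (b : {v // ¬ c v}) (a : {v // c v}) => H.Adj b.1 a.1) G X).card
      ≤ Fintype.card (H →g G) := by
  rw [← Fintype.card_coe, ← Fintype.card_coe, ← Fintype.card_sum]
  refine Fintype.card_le_of_injective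
    (Sum.elim (homOfPairs₁ H G c X hc) (homOfPairs₂ H G c X hc)) ?_
  rintro (p | q) (p' | q') h
  · congr 1
    apply Subtype.ext
    apply Prod.ext
    · funext a
      have := congrArg (fun f : H →g G => f a.1) h
      simpa [homOfPairs₁, a.2] using this
    · funext b
      have := congrArg (fun f : H →g G => f b.1) h
      simpa [homOfPairs₁, b.2] using this
  · exfalso
    obtain ⟨v⟩ := ‹Nonempty V›
    have hp := (Finset.mem_filter.mp p.2).2
    have hq := (Finset.mem_filter.mp q'.2).2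
    have := congrArg (fun f : H →g G => f v) h
    by_cases hv : c v
    · simp only [Sum.elim_inl, Sum.elim_inr, homOfPairs₁, homOfPairs₂, RelHom.coeFn_mk,
        dif_pos hv] at this
      exact hq.2.1 ⟨v, hv⟩ (this ▸ hp.1 ⟨v, hv⟩)
    · simp only [Sum.elim_inl, Sum.elim_inr, homOfPairs₁, homOfPairs₂, RelHom.coeFn_mk,
        dif_neg hv] at this
      exact hp.2.1 ⟨v, hv⟩ (this ▸ hq.1 ⟨v, hv⟩)
  · exfalso
    obtain ⟨v⟩ := ‹Nonempty V›
    have hp := (Finset.mem_filter.mp p'.2).2
    have hq := (Finset.mem_filter.mp q.2).2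
    have := congrArg (fun f : H →g G => f v) h
    by_cases hv : c v
    · simp only [Sum.elim_inl, Sum.elim_inr, homOfPairs₁, homOfPairs₂, RelHom.coeFn_mk,
        dif_pos hv] at this
      exact hq.2.1 ⟨v, hv⟩ (this ▸ hp.1 ⟨v, hv⟩)
    · simp only [Sum.elim_inl, Sum.elim_inr, homOfPairs₁, homOfPairs₂, RelHom.coeFn_mk,
        dif_neg hv] at this
      exact hp.2.1 ⟨v, hv⟩ (this ▸ hq.1 ⟨v, hv⟩)
  · congr 1
    apply Subtype.ext
    apply Prod.ext
    · funext b
      have := congrArg (fun f : H →g G => f b.1) h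
      simpa [homOfPairs₂, b.2] using this
    · funext a
      have := congrArg (fun f : H →g G => f a.1) h
      simpa [homOfPairs₂, a.2] using this

end inj

end Vale.Agent.Lib.P050
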