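import Mathlib
import Vale.Agent.Lib.P050.Defs
import Vale.Agent.Lib.P050.Weighted
import Vale.Agent.Lib.P050.Chain
import Vale.Agent.Lib.P050.Arith

namespace Vale.Agent.Lib.P050

open Finset

section sums
variable {W : Type*} [Fintype W] [DecidableEq W] (G : SimpleGraph W) [DecidableRel G.Adj]
  (X : W → Prop) [DecidablePred X]

theorem sum_w : ∑ z, (if X z then (1 : ℝ) else 0) = ((univ.filter X).card : ℝ) := by
  rw [Finset.sum_boole]

theorem sum_ν : ∑ z, (if X z then (0 : ℝ) else 1) = ((univ.filter fun z => ¬ X z).card : ℝ) := by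
  rw [← Finset.sum_boole]
  refine Finset.sum_congr rfl fun z _ => ?_
  by_cases hz : X z <;> simp [hz]

theorem isBipartiteWith_filter (hX : ∀ u v, G.Adj u v → (X u ↔ ¬ X v)) :
    G.IsBipartiteWith (↑(univ.filter X) : Set W) (↑(univ.filter fun z => ¬ X z) : Set W) where
  disjoint := by
    rw [Finset.disjoint_coe]
    exact Finset.disjoint_filter_filter_not _ _ _
  mem_of_adj := by
    intro v w h
    by_cases hv : X v
    · left
      simp [hv, (hX v w h).mp hv]
    · right
      have hw : X w := by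
        by_contra hw
        exact hv ((hX v w h).mpr hw)
      simp [hv, hw]

theorem sum_P (hX : ∀ u v, G.Adj u v → (X u ↔ ¬ X v)) :
    ∑ z, ∑ z', (if X z then (1 : ℝ) else 0) * (if X z' then (0 : ℝ) else 1) *
        (if X z ∧ ¬ X z' ∧ G.Adj z z' then (1 : ℝ) else 0)
      = (G.edgeFinset.card : ℝ) := by
  rw [← SimpleGraph.isBipartiteWith_sum_degrees_eq_card_edges (isBipartiteWith_filter G X hX),
    Nat.cast_sum, Finset.sum_filter]
  refine Finset.sum_congr rfl fun z _ => ?_
  by_cases hz : X z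
  · have hdeg : (G.degree z : ℝ) = ∑ z', (if G.Adj z z' then (1 : ℝ) else 0) := by
      rw [← SimpleGraph.card_neighborFinset_eq_degree, SimpleGraph.neighborFinset_eq_filter,
        Finset.sum_boole]
    conv_rhs => rw [if_pos hz, hdeg]
    refine Finset.sum_congr rfl fun z' _ => ?_
    by_cases hadj : G.Adj z z'
    · have hz' : ¬ X z' := (hX z z' hadj).mp hz
      simp [hz, hz', hadj]
    · simp [hz, hadj]
  · simp [hz]

theorem sum_P_le :
    ∑ z, ∑ z', (if X z then (1 : ℝ) else 0) * (if X z' then (0 : ℝ) else 1) *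
        (if X z ∧ ¬ X z' ∧ G.Adj z z' then (1 : ℝ) else 0)
      ≤ (∑ z, (if X z then (1 : ℝ) else 0)) * ∑ z, (if X z then (0 : ℝ) else 1) := by
  rw [Finset.sum_mul_sum]
  refine Finset.sum_le_sum fun z _ => Finset.sum_le_sum fun z' _ => ?_
  have h1 : (0 : ℝ) ≤ (if X z then (1 : ℝ) else 0) * (if X z' then (0 : ℝ) else 1) := by
    split_ifs <;> norm_num
  have h2 : (if X z ∧ ¬ X z' ∧ G.Adj z z' then (1 : ℝ) else 0) ≤ 1 := by
    split_ifs <;> norm_num
  calc _ ≤ (if X z then (1 : ℝ) else 0) * (if X z' then (0 : ℝ) else 1) * 1 :=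
        mul_le_mul_of_nonneg_left h2 h1
    _ = _ := mul_one _

theorem card_filter_subtype_adj (q : W → Prop) [DecidablePred q] (u : W)
    (hq : ∀ v, G.Adj v u → q v) :
    (univ.filter fun a : {v // q v} => G.Adj a.1 u).card = G.degree u := by
  rw [← SimpleGraph.card_neighborFinset_eq_degree]
  have : (univ.filter fun a : {v // q v} => G.Adj a.1 u) = (G.neighborFinset u).subtype q := by
    ext a
    simp [SimpleGraph.adj_comm]
  rw [this, Finset.card_subtype, Finset.filter_true_of_mem]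
  intro v hv
  exact hq v ((G.mem_neighborFinset u v).mp hv).symm

theorem sum_m₁ (hX : ∀ u v, G.Adj u v → (X u ↔ ¬ X v)) :
    ∑ b : {v // ¬ X v}, (univ.filter fun a : {v // X v} => G.Adj a.1 b.1).card
      = G.edgeFinset.card := by
  have h1 : ∀ b : {v // ¬ X v},
      (univ.filter fun a : {v // X v} => G.Adj a.1 b.1).card = G.degree b.1 :=
    fun b => card_filter_subtype_adj G X b.1 (fun v hv => (hX v b.1 hv).mpr b.2)
  simp only [h1]
  rw [← SimpleGraph.isBipartiteWith_sum_degrees_eq_card_edges' (isBipartiteWith_filter G X hX)]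
  exact (Finset.sum_subtype (univ.filter fun z => ¬ X z) (by simp) (fun v => G.degree v)).symm

theorem sum_m₂ (hX : ∀ u v, G.Adj u v → (X u ↔ ¬ X v)) :
    ∑ a : {v // X v}, (univ.filter fun b : {v // ¬ X v} => G.Adj b.1 a.1).card
      = G.edgeFinset.card := by
  have h1 : ∀ a : {v // X v},
      (univ.filter fun b : {v // ¬ X v} => G.Adj b.1 a.1).card = G.degree a.1 :=
    fun a => card_filter_subtype_adj G (fun v => ¬ X v) a.1
      (fun v hv hcv => ((hX v a.1 hv).mp hcv) a.2)
  simp only [h1]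
  rw [← SimpleGraph.isBipartiteWith_sum_degrees_eq_card_edges (isBipartiteWith_filter G X hX)]
  exact (Finset.sum_subtype (univ.filter fun z => X z) (by simp) (fun v => G.degree v)).symm

/-- a linear order on the vertices for which the adjacency indicator towards the
other side is monotone, when the neighbourhoods of the vertices in `X` are nested. -/
theorem exists_linearOrder_mono
    (hnest : ∀ x x', X x → X x' →
      G.neighborFinset x ⊆ G.neighborFinset x' ∨ G.neighborFinset x' ⊆ G.neighborFinset x) :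
    ∃ _ : LinearOrder W, ∀ y : W,
      Monotone fun z => (if X z ∧ ¬ X y ∧ G.Adj z y then (1 : ℝ) else 0) := by
  let key : W → ℕ ×ₗ ℕ := fun z =>
    toLex ((if X z then G.degree z + 1 else 0), ((Fintype.equivFin W z : Fin _) : ℕ))
  have hinj : Function.Injective key := by
    intro z z' h
    have h2 : (ofLex (key z)).2 = (ofLex (key z')).2 := by rw [h]
    simp only [key, ofLex_toLex] at h2
    exact (Fintype.equivFin W).injective (Fin.val_injective h2)
  refine ⟨LinearOrder.lift' key hinj, ?_⟩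
  intro y z z' hzz'
  have hk : key z ≤ key z' := hzz'
  have hk1 : (if X z then G.degree z + 1 else 0) ≤ (if X z' then G.degree z' + 1 else 0) := by
    rcases (Prod.Lex.toLex_le_toLex).mp hk with h | h
    · exact h.le
    · exact h.1.le
  by_cases h : X z ∧ ¬ X y ∧ G.Adj z y
  · have hz' : X z' := by
      by_contra hz'
      rw [if_pos h.1, if_neg hz'] at hk1
      omega
    rw [if_pos h.1, if_pos hz'] at hk1
    have hdeg : G.degree z ≤ G.degree z' := by omega
    have hsub : G.neighborFinset z ⊆ G.neighborFinset z' := by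
      rcases hnest z z' h.1 hz' with h' | h'
      · exact h'
      · have := Finset.eq_of_subset_of_card_le h'
          (by rw [SimpleGraph.card_neighborFinset_eq_degree,
            SimpleGraph.card_neighborFinset_eq_degree]; exact hdeg)
        rw [this]
    have hadj : G.Adj z' y := by
      have : y ∈ G.neighborFinset z' := hsub ((G.mem_neighborFinset z y).mpr h.2.2)
      exact (G.mem_neighborFinset z' y).mp this
    show (if X z ∧ ¬ X y ∧ G.Adj z y then (1 : ℝ) else 0)
      ≤ (if X z' ∧ ¬ X y ∧ G.Adj z' y then (1 : ℝ) else 0)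
    rw [if_pos h, if_pos ⟨hz', h.2.1, hadj⟩]
  · show (if X z ∧ ¬ X y ∧ G.Adj z y then (1 : ℝ) else 0)
      ≤ (if X z' ∧ ¬ X y ∧ G.Adj z' y then (1 : ℝ) else 0)
    rw [if_neg h]
    split_ifs <;> norm_num

end sums

theorem edgeSet_ncard_eq {V : Type*} [Fintype V] [DecidableEq V] (H : SimpleGraph V)
    [DecidableRel H.Adj] : H.edgeSet.ncard = H.edgeFinset.card := by
  rw [Set.ncard_eq_toFinset_card']
  rfl

/-- Sidorenko's inequality for a connected bipartite graph `H` and a chain graph target `G`. -/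
theorem sidorenko_chain_connected {V W : Type*} [Fintype V] [Fintype W] [Nonempty W]
    (H : SimpleGraph V) (G : SimpleGraph W) (hH : H.IsBipartite) (hconn : H.Connected)
    (X Y : Set W) (hG : G.IsBipartiteWith X Y)
    (hnest : ∀ x ∈ X, ∀ x' ∈ X,
      G.neighborSet x ⊆ G.neighborSet x' ∨ G.neighborSet x' ⊆ G.neighborSet x) :
    (2 * (G.edgeSet.ncard : ℝ) / (Fintype.card W : ℝ) ^ 2) ^ H.edgeSet.ncard
      ≤ (Nat.card (H →g G) : ℝ) / (Fintype.card W : ℝ) ^ Fintype.card V := by
  classical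
  obtain ⟨s, t, hst⟩ := hH.exists_isBipartiteWith
  have hc : ∀ u v, H.Adj u v → (u ∈ s ↔ ¬ v ∈ s) := by
    intro u v huv
    rcases hst.mem_of_adj huv with ⟨hu, hv⟩ | ⟨hu, hv⟩
    · exact ⟨fun _ => Set.disjoint_right.mp hst.disjoint hv, fun _ => hu⟩
    · exact ⟨fun h => absurd h (Set.disjoint_right.mp hst.disjoint hu), fun h => absurd hv h⟩
  have hX : ∀ u v, G.Adj u v → (u ∈ X ↔ ¬ v ∈ X) := by
    intro u v huv
    rcases hG.mem_of_adj huv with ⟨hu, hv⟩ | ⟨hu, hv⟩
    · exact ⟨fun _ => Set.disjoint_right.mp hG.disjoint hv, fun _ => hu⟩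
    · exact ⟨fun h => absurd h (Set.disjoint_right.mp hG.disjoint hu), fun h => absurd hv h⟩
  have hnest' : ∀ x x', x ∈ X → x' ∈ X →
      G.neighborFinset x ⊆ G.neighborFinset x' ∨ G.neighborFinset x' ⊆ G.neighborFinset x := by
    intro x x' hx hx'
    rcases hnest x hx x' hx' with h | h
    · left
      intro y hy
      rw [SimpleGraph.mem_neighborFinset] at hy ⊢
      exact h hy
    · right
      intro y hy
      rw [SimpleGraph.mem_neighborFinset] at hy ⊢
      exact h hy
  obtain ⟨L, hmono⟩ := exists_linearOrder_mono G (fun z => z ∈ X) hnest'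
  have hVne : Nonempty V := hconn.nonempty
  have hw : ∀ z : W, (0 : ℝ) ≤ (if z ∈ X then (1 : ℝ) else 0) := by
    intro z; split_ifs <;> norm_num
  have hν : ∀ z : W, (0 : ℝ) ≤ (if z ∈ X then (0 : ℝ) else 1) := by
    intro z; split_ifs <;> norm_num
  have hM : ∀ z z' : W, (0 : ℝ) ≤ (if z ∈ X ∧ ¬ z' ∈ X ∧ G.Adj z z' then (1 : ℝ) else 0) := by
    intro z z'; split_ifs <;> norm_num
  have h1 := @bipHom_sidorenko {v // v ∈ s} {v // ¬ v ∈ s} W W _ _ _ _ L _ _
    (fun a b => H.Adj a.1 b.1) _ (fun z => if z ∈ X then (1 : ℝ) else 0)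
    (fun z => if z ∈ X then (0 : ℝ) else 1)
    (fun z z' => if z ∈ X ∧ ¬ z' ∈ X ∧ G.Adj z z' then (1 : ℝ) else 0) hw hν hM hmono
  have h2 := @bipHom_sidorenko {v // ¬ v ∈ s} {v // v ∈ s} W W _ _ _ _ L _ _
    (fun b a => H.Adj b.1 a.1) _ (fun z => if z ∈ X then (1 : ℝ) else 0)
    (fun z => if z ∈ X then (0 : ℝ) else 1)
    (fun z z' => if z ∈ X ∧ ¬ z' ∈ X ∧ G.Adj z z' then (1 : ℝ) else 0) hw hν hM hmono
  rw [← card_sidePairs (fun (a : {v // v ∈ s}) (b : {v // ¬ v ∈ s}) => H.Adj a.1 b.1) G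
      (fun z => z ∈ X), sum_m₁ H (fun v => v ∈ s) hc, sum_w (fun z => z ∈ X),
    sum_ν (fun z => z ∈ X), sum_P G (fun z => z ∈ X) hX] at h1
  rw [← card_sidePairs (fun (b : {v // ¬ v ∈ s}) (a : {v // v ∈ s}) => H.Adj b.1 a.1) G
      (fun z => z ∈ X), sum_m₂ H (fun v => v ∈ s) hc, sum_w (fun z => z ∈ X),
    sum_ν (fun z => z ∈ X), sum_P G (fun z => z ∈ X) hX] at h2
  have hPle := sum_P_le G (fun z => z ∈ X)
  rw [sum_P G (fun z => z ∈ X) hX, sum_w (fun z => z ∈ X), sum_ν (fun z => z ∈ X)] at hPle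
  have hcard := card_hom_ge H G (fun v => v ∈ s) (fun z => z ∈ X) hc
  have hxy : ((univ.filter fun z => z ∈ X).card : ℝ) + ((univ.filter fun z => ¬ z ∈ X).card : ℝ)
      = (Fintype.card W : ℝ) := by
    rw [← Nat.cast_add, Finset.card_filter_add_card_filter_not, Finset.card_univ]
  have hab : Fintype.card {v // v ∈ s} + Fintype.card {v // ¬ v ∈ s} = Fintype.card V := by
    rw [Fintype.card_subtype_compl]
    have := Fintype.card_subtype_le (fun v => v ∈ s)
    omega
  have hVm : Fintype.card V ≤ H.edgeFinset.card + 1 := by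
    have := hconn.card_vert_le_card_edgeSet_add_one
    rwa [Nat.card_eq_fintype_card, Nat.card_eq_fintype_card, ← SimpleGraph.edgeFinset_card] at this
  rw [edgeSet_ncard_eq, edgeSet_ncard_eq, Nat.card_eq_fintype_card, ← hxy, ← hab]
  refine final_arith ((univ.filter fun z => z ∈ X).card : ℝ)
    ((univ.filter fun z => ¬ z ∈ X).card : ℝ) (G.edgeFinset.card : ℝ)
    ((sidePairs (fun (a : {v // v ∈ s}) (b : {v // ¬ v ∈ s}) => H.Adj a.1 b.1) G
      (fun z => z ∈ X)).card : ℝ)
    ((sidePairs (fun (b : {v // ¬ v ∈ s}) (a : {v // v ∈ s}) => H.Adj b.1 a.1) G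
      (fun z => z ∈ X)).card : ℝ)
    (Fintype.card (H →g G) : ℝ) (Fintype.card {v // v ∈ s}) (Fintype.card {v // ¬ v ∈ s})
    H.edgeFinset.card (Nat.cast_nonneg _) (Nat.cast_nonneg _) (Nat.cast_nonneg _)
    ?_ hPle ?_ ?_ ?_ ?_ ?_ (Nat.cast_nonneg _) (Nat.cast_nonneg _)
  · rw [hxy]
    exact_mod_cast Fintype.card_pos
  · rw [hab]
    exact Fintype.card_pos
  · rw [hab]
    exact hVm
  · exact h1
  · exact h2
  · exact_mod_cast hcard

end Vale.Agent.Lib.P050
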