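import Mathlib
import Vale.Agent.Lib.P050.ChainMain

namespace Vale.Agent.Lib.P050

open Finset

section split
variable {V W : Type*} (H : SimpleGraph V) (G : SimpleGraph W)

/-- a graph with no edges between `S` and its complement is the disjoint sum of the two
induced subgraphs. -/
noncomputable def splitIso (S : Set V) (hS : ∀ a ∈ S, ∀ b ∉ S, ¬ H.Adj a b) :
    (H.induce S ⊕g H.induce Sᶜ) ≃g H := by
  classical
  exact
  { toEquiv := Equiv.Set.sumCompl S
    map_rel_iff' := by
      rintro (a | a) (b | b)
      · simp
      · simp only [Equiv.Set.sumCompl_apply_inl, Equiv.Set.sumCompl_apply_inr,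
          SimpleGraph.not_adj_sum_inl_inr, iff_false]
        exact hS a.1 a.2 b.1 b.2
      · simp only [Equiv.Set.sumCompl_apply_inl, Equiv.Set.sumCompl_apply_inr,
          SimpleGraph.sum_adj, iff_false]
        intro h
        exact hS b.1 b.2 a.1 a.2 h.symm
      · simp }

/-- homomorphisms out of a disjoint sum. -/
def sumHomEquiv {V₁ V₂ : Type*} (H₁ : SimpleGraph V₁) (H₂ : SimpleGraph V₂) :
    (H₁ ⊕g H₂ →g G) ≃ (H₁ →g G) × (H₂ →g G) where
  toFun f := (f.comp SimpleGraph.Embedding.sumInl.toHom, f.comp SimpleGraph.Embedding.sumInr.toHom)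
  invFun p :=
    { toFun := Sum.elim p.1 p.2
      map_rel' := by
        rintro (a | a) (b | b) h
        · exact p.1.map_rel (by simpa using h)
        · simp at h
        · simp at h
        · exact p.2.map_rel (by simpa using h) }
  left_inv f := by
    ext (a | a) <;> rfl
  right_inv p := by
    ext a <;> rfl

end split

universe u

/-- Sidorenko's inequality for every bipartite graph `H` and every chain graph target `G`. -/
theorem sidorenko_chain_aux {W : Type*} [Fintype W] [Nonempty W] (G : SimpleGraph W)
    (X Y : Set W) (hG : G.IsBipartiteWith X Y)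
    (hnest : ∀ x ∈ X, ∀ x' ∈ X,
      G.neighborSet x ⊆ G.neighborSet x' ∨ G.neighborSet x' ⊆ G.neighborSet x) :
    ∀ n : ℕ, ∀ (V : Type u) [Fintype V] (H : SimpleGraph V), Fintype.card V = n →
      H.IsBipartite →
      (2 * (G.edgeSet.ncard : ℝ) / (Fintype.card W : ℝ) ^ 2) ^ H.edgeSet.ncard
        ≤ (Nat.card (H →g G) : ℝ) / (Fintype.card W : ℝ) ^ Fintype.card V := by
  intro n
  induction n using Nat.strong_induction_on with
  | _ n ih =>
    intro V _ H hcard hH
    by_cases hconn : H.Connected
    · exact sidorenko_chain_connected H G hH hconn X Y hG hnest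
    · rcases isEmpty_or_nonempty V with hV | hV
      · have h1 : H.edgeSet.ncard = 0 := by
          rw [Set.ncard_eq_zero]
          exact Set.eq_empty_of_isEmpty _
        have f0 : H →g G := ⟨fun x => isEmptyElim x, fun {a} => isEmptyElim a⟩
        have hsub : Subsingleton (H →g G) := ⟨fun f g => RelHom.ext fun x => isEmptyElim x⟩
        have h2 : Nat.card (H →g G) = 1 := Nat.card_of_subsingleton f0
        have h3 : Fintype.card V = 0 := Fintype.card_eq_zero
        rw [h1, h2, h3]
        simp
      · have hpre : ¬ H.Preconnected := fun h => hconn ⟨h⟩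
        obtain ⟨u, v, huv⟩ : ∃ u v, ¬ H.Reachable u v := by
          by_contra hcon
          push Not at hcon
          exact hpre hcon
        classical
        set S : Set V := {w | H.Reachable u w} with hSdef
        have hS : ∀ a ∈ S, ∀ b ∉ S, ¬ H.Adj a b :=
          fun a ha b hb hab => hb (SimpleGraph.Reachable.trans ha hab.reachable)
        have huS : u ∈ S := SimpleGraph.Reachable.refl u
        have hvS : v ∉ S := huv
        have hVsum : Fintype.card V = Fintype.card ↥S + Fintype.card ↥Sᶜ := by
          rw [← Fintype.card_sum]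
          exact (Fintype.card_congr (Equiv.Set.sumCompl S)).symm
        have hS1 : 0 < Fintype.card ↥S := Fintype.card_pos_iff.mpr ⟨⟨u, huS⟩⟩
        have hS2 : 0 < Fintype.card ↥Sᶜ := Fintype.card_pos_iff.mpr ⟨⟨v, hvS⟩⟩
        have ih1 := ih (Fintype.card ↥S) (by omega) ↥S (H.induce S) rfl
          ⟨hH.some.comp (SimpleGraph.Embedding.induce S).toHom⟩
        have ih2 := ih (Fintype.card ↥Sᶜ) (by omega) ↥Sᶜ (H.induce Sᶜ) rfl
          ⟨hH.some.comp (SimpleGraph.Embedding.induce Sᶜ).toHom⟩
        let φ := splitIso H S hS
        have e1 : (H →g G) ≃ (H.induce S ⊕g H.induce Sᶜ →g G) :=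
          { toFun := fun f => f.comp φ.toHom
            invFun := fun f => f.comp φ.symm.toHom
            left_inv := by
              intro f
              ext x
              simp
            right_inv := by
              intro f
              ext x
              simp }
        have hhom : Nat.card (H →g G)
            = Nat.card (H.induce S →g G) * Nat.card (H.induce Sᶜ →g G) := by
          rw [Nat.card_congr (e1.trans (sumHomEquiv G (H.induce S) (H.induce Sᶜ))), Nat.card_prod]
        have hedge : H.edgeSet.ncard
            = (H.induce S).edgeSet.ncard + (H.induce Sᶜ).edgeSet.ncard := by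
          rw [← Nat.card_coe_set_eq, ← Nat.card_coe_set_eq, ← Nat.card_coe_set_eq,
            ← Nat.card_congr φ.mapEdgeSet, Nat.card_congr SimpleGraph.edgeSetSumEquiv, Nat.card_sum]
        have hn0 : (0 : ℝ) ≤ (Fintype.card W : ℝ) := Nat.cast_nonneg _
        rw [hhom, hedge, hVsum, pow_add, pow_add, Nat.cast_mul, mul_div_mul_comm]
        exact mul_le_mul ih1 ih2 (pow_nonneg (div_nonneg (by positivity) (by positivity)) _)
          (div_nonneg (Nat.cast_nonneg _) (pow_nonneg hn0 _))

end Vale.Agent.Lib.P050
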